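import Vale.Agent.Lib.P304.Mono

namespace Vale.Agent.Results.P304.MonotoneInServers

open Vale.Agent.Lib.P304

/-- **The randomized `k`-server ratio `R(k)` is nondecreasing in the number of servers.**
`R(j) ≤ R(k)` for all `1 ≤ j ≤ k`, where `R(k)` (`serverRatio k`) is the supremum of the
randomized competitive ratio `ρ(X, d, s)` over all metric spaces `(X, d)` with at least `k + 1`
points (bounded or not) and all initial positions `s` of the `k` servers, as in the problem.

The proof adds to `X` one point `far` at distance `1 + d(x₀, x)` from `x`, puts the additional
server there, and replaces every request `r` by a block `r, far, r, far, …` whose length is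
fixed by the earlier requests; a `k`-server policy on `X` then simulates any `(k+1)`-server
policy of the new space at no greater cost, and the optimal costs agree. -/
theorem result : ∀ j k : ℕ, 1 ≤ j → j ≤ k → serverRatio j ≤ serverRatio k := by
  intro j k hj hjk
  induction k, hjk using Nat.le_induction with
  | base => exact le_rfl
  | succ n hn ih => exact ih.trans (serverRatio_mono n (hj.trans hn))

end Vale.Agent.Results.P304.MonotoneInServers
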